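import Mathlib
import Vale.Agent.P052.Geom

/-!
Borsuk's conjecture fails in dimension 63: there is a set of (at most) 321 points of `ℝ^63`
which is not a union of 64 subsets of strictly smaller diameter.
-/

namespace Vale.Agent.Results.P052.DimSixtyThree

/-- Borsuk's conjecture in dimension `d`: every bounded set of positive diameter in Euclidean
`d`-space is the union of `d + 1` subsets of strictly smaller diameter. -/
def BorsukConjecture (d : ℕ) : Prop :=
  ∀ Y : Set (EuclideanSpace ℝ (Fin d)), Bornology.IsBounded Y → 0 < Metric.diam Y →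
    ∃ P : Fin (d + 1) → Set (EuclideanSpace ℝ (Fin d)),
      (⋃ i, P i) = Y ∧ ∀ i, Metric.diam (P i) < Metric.diam Y

/-- Borsuk's conjecture is false in dimension 63, and in fact some finite set with at most
321 points in `ℝ^63` cannot be covered by 64 sets of diameter smaller than its own. -/
theorem result :
    ¬ BorsukConjecture 63 ∧
    ∃ Y : Finset (EuclideanSpace ℝ (Fin 63)), Y.card ≤ 321 ∧
      0 < Metric.diam (Y : Set (EuclideanSpace ℝ (Fin 63))) ∧
      ∀ P : Fin 64 → Set (EuclideanSpace ℝ (Fin 63)),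
        (Y : Set (EuclideanSpace ℝ (Fin 63))) ⊆ ⋃ i, P i →
        ∃ i, Metric.diam (Y : Set (EuclideanSpace ℝ (Fin 63))) ≤
          Metric.diam (P i ∩ (Y : Set (EuclideanSpace ℝ (Fin 63)))) := by
  classical
  obtain ⟨z, hz, ⟨i0, j0, hpos⟩, hcl⟩ := Vale.Agent.P052.exists_points
  have main : ∃ Y : Finset (EuclideanSpace ℝ (Fin 63)), Y.card ≤ 321 ∧
      0 < Metric.diam (Y : Set (EuclideanSpace ℝ (Fin 63))) ∧
      ∀ P : Fin 64 → Set (EuclideanSpace ℝ (Fin 63)),
        (Y : Set (EuclideanSpace ℝ (Fin 63))) ⊆ ⋃ i, P i →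
        ∃ i, Metric.diam (Y : Set (EuclideanSpace ℝ (Fin 63))) ≤
          Metric.diam (P i ∩ (Y : Set (EuclideanSpace ℝ (Fin 63)))) := by
    refine ⟨Finset.univ.image z, ?_, ?_, ?_⟩
    · exact (Finset.card_image_le).trans (by simp)
    · have hb : Bornology.IsBounded
          ((Finset.univ.image z : Finset (EuclideanSpace ℝ (Fin 63))) :
            Set (EuclideanSpace ℝ (Fin 63))) := (Finset.finite_toSet _).isBounded
      exact lt_of_lt_of_le hpos (Metric.dist_le_diam_of_mem hb (by simp) (by simp))
    · intro P hP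
      by_contra hcon
      push Not at hcon
      have hdiam : Metric.diam ((Finset.univ.image z : Finset (EuclideanSpace ℝ (Fin 63))) :
            Set (EuclideanSpace ℝ (Fin 63))) ≤ √(1 / 3) := by
        refine Metric.diam_le_of_forall_dist_le (Real.sqrt_nonneg _) ?_
        intro x hx w hw
        simp only [Finset.coe_image, Finset.coe_univ, Set.image_univ, Set.mem_range] at hx hw
        obtain ⟨i, rfl⟩ := hx
        obtain ⟨j, rfl⟩ := hw
        exact Real.le_sqrt_of_sq_le (hz i j)
      have hmem : ∀ i : Fin 321, ∃ p : Fin 64, z i ∈ P p := by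
        intro i
        have : z i ∈ ⋃ p, P p := hP (by simp)
        simpa using this
      choose g hg using hmem
      obtain ⟨p, -, hp⟩ := Finset.exists_lt_card_fiber_of_mul_lt_card_of_maps_to
        (s := (Finset.univ : Finset (Fin 321))) (t := (Finset.univ : Finset (Fin 64))) (f := g)
        (n := 5) (fun _ _ => Finset.mem_univ _) (by simp)
      have h5 := hcl (Finset.univ.filter fun x => g x = p) (by
        intro i hi j hj hij
        rw [Finset.mem_filter] at hi hj
        have hbd : Bornology.IsBounded (P p ∩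
            ((Finset.univ.image z : Finset (EuclideanSpace ℝ (Fin 63))) :
            Set (EuclideanSpace ℝ (Fin 63)))) :=
          ((Finset.finite_toSet _).subset Set.inter_subset_right).isBounded
        have h1 : dist (z i) (z j) ≤ Metric.diam (P p ∩
            ((Finset.univ.image z : Finset (EuclideanSpace ℝ (Fin 63))) :
            Set (EuclideanSpace ℝ (Fin 63)))) :=
          Metric.dist_le_diam_of_mem hbd ⟨hi.2 ▸ hg i, by simp⟩ ⟨hj.2 ▸ hg j, by simp⟩
        have h2 : dist (z i) (z j) < √(1 / 3) := lt_of_le_of_lt h1 (lt_of_lt_of_le (hcon p) hdiam)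
        rwa [Real.lt_sqrt dist_nonneg] at h2)
      omega
  refine ⟨?_, main⟩
  intro hB
  obtain ⟨Y, -, hY0, hY⟩ := main
  obtain ⟨P, hPY, hPd⟩ := hB (Y : Set (EuclideanSpace ℝ (Fin 63))) (Y.finite_toSet.isBounded) hY0
  obtain ⟨i, hi⟩ := hY P hPY.ge
  have hsub : P i ∩ (Y : Set (EuclideanSpace ℝ (Fin 63))) = P i :=
    Set.inter_eq_left.mpr (hPY ▸ Set.subset_iUnion P i)
  rw [hsub] at hi
  exact absurd (hPd i) (not_lt.mpr hi)

end Vale.Agent.Results.P052.DimSixtyThree
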